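import Vale.Agent.P100.Cmp.Compare
import Vale.Agent.P100.Diag.Sublinear

/-!
P100: the Lane–Emden conjecture from its parts. With `α = 2(p+1)/(pq-1)` and `β = 2(q+1)/(pq-1)`
the subcritical range `α + β > n - 2` splits, up to exchanging `u` and `v`, into `pq ≤ 1`, `p = q`,
`α > n - 3` and the calibrated range `1 ≤ β < α ≤ n - 3`.
-/

open scoped Laplacian

namespace Vale.Agent.P100.Full

/-- A positive entire solution of the Lane–Emden system exists. -/
def HasSolution (n : ℕ) (p q : ℝ) : Prop :=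
  ∃ u v : EuclideanSpace ℝ (Fin n) → ℝ, Continuous u ∧ Continuous v ∧
    (∀ x, 0 < u x ∧ 0 < v x) ∧
    ∀ x ≠ 0, ContDiffAt ℝ 2 u x ∧ ContDiffAt ℝ 2 v x ∧
      -Δ u x = v x ^ p ∧ -Δ v x = u x ^ q

/-- Exchanging the two equations. -/
theorem hasSolution_swap {n : ℕ} {p q : ℝ} (h : HasSolution n p q) : HasSolution n q p := by
  obtain ⟨u, v, hu, hv, hpos, h⟩ := h
  exact ⟨v, u, hv, hu, fun x => ⟨(hpos x).2, (hpos x).1⟩,
    fun x hx => ⟨(h x hx).2.1, (h x hx).1, (h x hx).2.2.2, (h x hx).2.2.1⟩⟩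

/-- The calibrated range with the comparison built in. -/
def Calibrated (n : ℕ) : Prop :=
  ∀ α β : ℝ, 1 ≤ β → β < α → α ≤ (n : ℝ) - 3 → (n : ℝ) - 2 < α + β →
    ¬ ∃ u v : EuclideanSpace ℝ (Fin n) → ℝ, Continuous u ∧ Continuous v ∧
      (∀ x, 0 < u x ∧ 0 < v x) ∧
      (∀ x ≠ 0, ContDiffAt ℝ 2 u x ∧ ContDiffAt ℝ 2 v x ∧
        -Δ u x = v x ^ ((α + 2) / β) ∧ -Δ v x = u x ^ ((β + 2) / α)) ∧
      ∀ x ≠ 0, Real.log (v x) / β - Real.log (u x) / α ≤ Real.log (α / β) / (α + β + 2)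

/-- The range `q < p`. -/
theorem no_solution_of_lt {n : ℕ} (hn : 5 ≤ n) {p q : ℝ} (hq : 0 < q) (hqp : q < p)
    (hpq : 1 < p * q) (hsub : ((n : ℝ) - 2) / n < 1 / (p + 1) + 1 / (q + 1))
    (sector : ∀ p q : ℝ, 0 < p → 0 < q → 1 < p * q →
      ((n : ℝ) - 2) / n < 1 / (p + 1) + 1 / (q + 1) →
      ((n : ℝ) - 1) * (p * q - 1) < 2 * max (p * (q + 1)) (q * (p + 1)) → ¬ HasSolution n p q)
    (cal : Calibrated n) : ¬ HasSolution n p q := by
  have hp0 : 0 < p := hq.trans hqp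
  set α : ℝ := 2 * (p + 1) / (p * q - 1) with hα
  set β : ℝ := 2 * (q + 1) / (p * q - 1) with hβ
  have hD : 0 < p * q - 1 := by linarith
  have hβ0 : 0 < β := by positivity
  have hβα : β < α := by rw [hα, hβ]; gcongr
  have hn0 : (5 : ℝ) ≤ n := by exact_mod_cast hn
  have hT : (n : ℝ) - 2 < α + β := by
    rw [one_div_add_one_div (by positivity) (by positivity),
      div_lt_div_iff₀ (by linarith) (by positivity)] at hsub
    rw [hα, hβ, ← add_div, lt_div_iff₀ hD]
    nlinarith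
  by_cases hsec : ((n : ℝ) - 1) * (p * q - 1) < 2 * max (p * (q + 1)) (q * (p + 1))
  · exact sector p q hp0 hq hpq hsub hsec
  have hαn : α ≤ (n : ℝ) - 3 := by
    rw [hα, div_le_iff₀ hD]
    have := le_max_left (p * (q + 1)) (q * (p + 1))
    nlinarith
  rintro ⟨u, v, hu, hv, hpos, h⟩
  have hp1 : 1 < p := by nlinarith
  have ep : (α + 2) / β = p := by rw [hα, hβ]; field_simp; ring
  have eq' : (β + 2) / α = q := by
    rw [div_eq_iff (hβ0.trans hβα).ne', hα, hβ, ← mul_div_assoc, div_add' _ _ _ hD.ne']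
    ring
  refine cal α β (by linarith) hβα hαn hT ⟨u, v, hu, hv, hpos, ?_, ?_⟩
  · rw [ep, eq']; exact h
  intro x _
  have hc := Cmp.comparison (by omega) hp1 (by linarith) hqp.le hu hv hpos h x
  obtain ⟨hux, hvx⟩ := hpos x
  have hl := Real.log_le_log (by positivity) hc
  rw [Real.log_div (Real.rpow_pos_of_pos hvx _).ne' (by positivity),
    Real.log_div (Real.rpow_pos_of_pos hux _).ne' (by positivity),
    Real.log_rpow hvx, Real.log_rpow hux] at hl
  have e1 : p + 1 = (α + β + 2) / β := by rw [← ep, div_add_one hβ0.ne']; ring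
  have e2 : q + 1 = (α + β + 2) / α := by rw [← eq', div_add_one (hβ0.trans hβα).ne']; ring
  have hN : 0 < α + β + 2 := by linarith
  rw [e1, e2, Real.log_div hN.ne' hβ0.ne', Real.log_div hN.ne' (hβ0.trans hβα).ne'] at hl
  rw [Real.log_div (hβ0.trans hβα).ne' hβ0.ne', le_div_iff₀ hN]
  have : (Real.log (v x) / β - Real.log (u x) / α) * (α + β + 2) =
      (α + β + 2) / β * Real.log (v x) - (α + β + 2) / α * Real.log (u x) := by ring
  linarith

/-- The conjecture from the sector, the diagonal and the calibrated range. -/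
theorem no_solution_of_parts {n : ℕ} (hn : 5 ≤ n)
    (sector : ∀ p q : ℝ, 0 < p → 0 < q → 1 < p * q →
      ((n : ℝ) - 2) / n < 1 / (p + 1) + 1 / (q + 1) →
      ((n : ℝ) - 1) * (p * q - 1) < 2 * max (p * (q + 1)) (q * (p + 1)) → ¬ HasSolution n p q)
    (diag : ∀ p : ℝ, 1 < p → ((n : ℝ) - 2) / n < 1 / (p + 1) + 1 / (p + 1) →
      ¬ HasSolution n p p)
    (cal : Calibrated n) {p q : ℝ} (hp : 0 < p) (hq : 0 < q)
    (hsub : ((n : ℝ) - 2) / n < 1 / (p + 1) + 1 / (q + 1)) : ¬ HasSolution n p q := by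
  rcases le_or_gt (p * q) 1 with hpq | hpq
  · exact Diag.no_solution_sublinear (by omega) hp hq hpq
  rcases lt_trichotomy q p with h | rfl | h
  · exact no_solution_of_lt hn hq h hpq hsub sector cal
  · exact diag q (by nlinarith) hsub
  · exact fun hs => no_solution_of_lt hn hp h (by linarith) (by linarith) sector cal
      (hasSolution_swap hs)

end Vale.Agent.P100.Full
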