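import Vale.Agent.P100.Diag.Scalar
import Vale.Agent.P100.Full.Split

/-!
P100: the diagonal part of the assembly.
-/

namespace Vale.Agent.P100.Full

/-- No positive entire solution with equal subcritical exponents. -/
theorem diag_part {n : ℕ} (hn : 5 ≤ n) (p : ℝ) (hp : 1 < p)
    (hsub : ((n : ℝ) - 2) / n < 1 / (p + 1) + 1 / (p + 1)) : ¬ HasSolution n p p := by
  refine Diag.no_solution_diag hn hp ?_
  rw [← add_div, div_lt_div_iff₀ (by positivity) (by linarith)] at hsub
  linarith

end Vale.Agent.P100.Full
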