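import Vale.Agent.P100.Ground.Back
import Vale.Agent.P100.Pos.Defs

/-! P100: the ground state stays in the region from the level `al / be` on. -/

namespace Vale.Agent.P100.Full

open Ground

variable {P : Par} (G : GroundState P) {z : ℝ}

/-- The ground state lies in the region for every `z ≥ zs`. -/
theorem region_groundState (hbe : 1 ≤ P.be) (hD : 3 ≤ P.al + P.be) (hz : G.zs ≤ z) :
    Pos.Region P.al P.be (P.al * G.O.psi z) (P.al * (G.O.crv z - P.gfun (G.O.psi z)))
      (G.O.aa z) := by
  have hN : 5 ≤ P.dim := by simp only [Par.dim]; linarith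
  have hdim : P.al + P.be + 2 = P.dim := rfl
  have hd := G.mem_of_zs hz
  have hal := P.al_pos
  have hbe0 := P.be_pos
  have hgap := sub_pos.2 P.be_lt
  have hx := Orb.psi_pos (O := G.O) hd
  have hy := G.psi_gt hd
  have hden := Orb.den_pos (O := G.O) hd
  have hs : 0 ≤ G.O.sg z := by
    rcases le_total 0 z with h | h
    · exact G.sg_nonneg h
    · exact (G.sg_pos_left hN hbe hz h).le
  have hcG : G.O.crv z ≤ P.dim / (P.dim - 2) := by
    rcases le_total 0 z with h | h
    · exact G.crv_le h
    · exact (G.crv_lt_left hd h).le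
  have hD0 : 0 < P.dim - 2 := by linarith
  set y := P.al * G.O.psi z with hydef
  set Q := P.dim ^ 2 + 2 * P.be with hQ
  set S := P.dim * (P.dim + 2) * (P.al + 2) * (y - P.be) * (y + P.be) /
      (y * (P.al - P.be) * (P.dim + 4)) *
    ((P.al - y) * (P.be * P.dim / (P.al + P.be) - y)) with hS
  have hy0 : 0 < y := hbe0.trans hy
  have hy1 : y < P.al := mul_lt_of_lt_one_right hal (G.psi_lt_one hd)
  have hD' : P.al + P.be = P.dim - 2 := by linarith
  have egap : (P.al - y) * (P.be * P.dim / (P.al + P.be) - y) =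
      P.al * (y + P.be) * (P.dim / (P.dim - 2) - P.gfun (G.O.psi z)) := by
    rw [P.gfun_gap _ hden.ne', hD', ← hydef]
    have : y + P.be ≠ 0 := by linarith
    have : P.be + y ≠ 0 := by linarith
    field_simp
    ring
  have hgap0 : 0 ≤ P.dim / (P.dim - 2) - P.gfun (G.O.psi z) := by
    simp only [Orb.sg] at hs; linarith
  have hyh : y * (P.al + P.be) ≤ P.be * P.dim := by
    have h1 : 0 ≤ (P.al - y) * (P.be * P.dim / (P.al + P.be) - y) := by
      rw [egap]; exact mul_nonneg (mul_pos hal (by linarith)).le hgap0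
    have h2 := nonneg_of_mul_nonneg_right h1 (sub_pos.2 hy1)
    rw [sub_nonneg, le_div_iff₀ (by linarith)] at h2
    exact h2
  have hwh : 0 ≤ P.be * P.dim / (P.al + P.be) - y := by
    rw [sub_nonneg, le_div_iff₀ (by linarith)]; exact hyh
  have hS0 : 0 ≤ S := by
    have : 0 ≤ y - P.be := by linarith
    have : 0 ≤ P.al - y := by linarith
    have := P.two_lt_dim
    rw [hS]; positivity
  have e0 : P.be * (P.dim + 2) * ((y + P.be) * (P.al * G.O.sg z)) =
      y * (y * Q - P.be * (P.dim ^ 2 + 2 * P.al)) +
        P.be * (P.dim + 2) * P.al * (y + P.be) * (G.O.crv z - P.ec * G.O.psi z) := by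
    have h := P.ec_sub_gfun hden.ne'
    rw [← hydef] at h
    simp only [Orb.sg, hQ]
    linear_combination h
  -- the inequality `z ≤ z1 + S`
  have hz1 : P.be * (P.dim + 2) * ((y + P.be) * (P.al * G.O.sg z)) ≤
      y * (y * Q - P.be * (P.dim ^ 2 + 2 * P.al)) + if G.O.aa z ≤ 0 then S else 0 := by
    have hk : 0 ≤ P.be * (P.dim + 2) * P.al * (y + P.be) := by positivity
    rw [e0]
    refine add_le_add le_rfl ?_
    rcases le_or_gt z 0 with h | h
    · rw [if_pos (G.aa_nonpos hd h)]
      obtain ⟨hq, -, haa, hA, -⟩ := G.left_facts hz h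
      refine (mul_le_mul_of_nonneg_left (G.slack hN hbe hz h) hk).trans ?_
      have eB : P.barT (G.O.psi z) = P.ec / P.al *
          ((y + P.be) * (P.dim / (P.dim - 2) - P.gfun (G.O.psi z))) / (P.dim + 4) := by
        simp only [Par.barT, Par.gfun, hydef]
        have : P.al * G.O.psi z + P.be ≠ 0 := by linarith
        field_simp
        ring
      rw [eB]
      set g := P.dim / (P.dim - 2) - P.gfun (G.O.psi z) with hg
      have h1 : -G.O.aa z ≤ (P.dim + 2) * P.al * (y - P.be) / (y * (P.al - P.be)) := by
        rw [le_div_iff₀ (mul_pos hy0 hgap), hydef]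
        have := mul_le_mul_of_nonneg_left hA hal.le
        linarith
      have := P.ec_pos
      have h2 := mul_le_mul_of_nonneg_left (mul_le_mul_of_nonneg_right h1
        (show 0 ≤ P.ec / P.al * ((y + P.be) * g) / (P.dim + 4) by
          have := P.two_lt_dim; positivity)) hk
      refine h2.trans (le_of_eq ?_)
      rw [hS, egap]
      simp only [Par.ec, Par.p]
      field_simp
    · have h1 := G.yv_pos h
      rw [G.yv_eq] at h1
      refine le_trans (mul_nonpos_of_nonneg_of_nonpos hk (by linarith)) ?_
      split_ifs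
      · exact hS0
      · exact le_rfl
  refine ⟨hbe, P.be_lt, hD, ?_, hy1.le, ?_, ?_, ?_, ?_, ?_, ?_⟩
  · -- the lower bound of `y`
    have h0 : 0 ≤ P.be * (P.dim + 2) * ((y + P.be) * (P.al * G.O.sg z)) := by positivity
    have h1 : 0 ≤ y * (y * Q - P.be * (P.dim ^ 2 + 2 * P.al)) + S :=
      (h0.trans hz1).trans (add_le_add le_rfl (by split_ifs <;> [exact le_rfl; exact hS0]))
    have h2 : S ≤ y * ((y - P.be) * (6 * P.dim)) := by
      have hv : P.al - y ≤ P.al - P.be := by linarith
      have hw : P.be * P.dim / (P.al + P.be) - y ≤ 2 * P.be / (P.al + P.be) := by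
        have e : P.be * P.dim / (P.al + P.be) = P.be + 2 * P.be / (P.al + P.be) := by
          rw [← hdim]; field_simp
        linarith
      have ha : (y + P.be) * (P.be * P.dim / (P.al + P.be) - y) ≤
          4 * (y * y) / (P.al + P.be) := by
        refine (mul_le_mul_of_nonneg_left hw (by linarith)).trans ?_
        rw [mul_div_assoc', div_le_div_iff_of_pos_right (by linarith)]
        nlinarith [mul_pos (sub_pos.2 hy) (sub_pos.2 hy), mul_pos (sub_pos.2 hy) hbe0]
      have hb : (P.al - y) * (P.be * P.dim / (P.al + P.be) - y) * (y + P.be) ≤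
          (P.al - P.be) * (4 * (y * y) / (P.al + P.be)) := by
        rw [mul_assoc]
        exact mul_le_mul hv (by rw [mul_comm]; exact ha) (by positivity) hgap.le
      have hk2 : 0 ≤ P.dim * (P.dim + 2) * (P.al + 2) * (y - P.be) /
          (y * (P.al - P.be) * (P.dim + 4)) := by
        have : 0 ≤ y - P.be := by linarith
        have := P.two_lt_dim
        positivity
      refine le_trans (le_trans (le_of_eq ?_) (mul_le_mul_of_nonneg_left hb hk2)) ?_
      · rw [hS]; ring
      have h3 : (P.dim + 2) / (P.dim + 4) * ((P.al + 2) / (P.al + P.be)) ≤ 1 * (3 / 2) := by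
        refine mul_le_mul ?_ ?_ (by positivity) zero_le_one
        · rw [div_le_one (by linarith)]; linarith
        · rw [div_le_iff₀ (by linarith)]; linarith
      have h4 := mul_le_mul_of_nonneg_left h3
        (show 0 ≤ y * ((y - P.be) * (4 * P.dim)) from
          mul_nonneg hy0.le (mul_nonneg (by linarith) (by linarith)))
      refine le_trans (le_of_eq ?_) (h4.trans (le_of_eq (by ring)))
      field_simp
    have h5 : 0 ≤ y * ((y - P.be) * (Q + 6 * P.dim) - 2 * P.be * (P.al - P.be)) := by
      simp only [hQ] at h1 ⊢; linarith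
    have := nonneg_of_mul_nonneg_right h5 hy0
    simp only [Pos.dN, hdim]
    simp only [hQ] at this
    linarith
  · simp only [Pos.dD, Pos.dN, hdim]; exact hyh
  · exact mul_nonneg hal.le hs
  · simp only [Pos.den, Pos.dD, Pos.dN, hdim, egap]
    refine le_trans (le_of_eq (by ring))
      (mul_le_mul_of_nonneg_left (sub_le_sub_right hcG _) (mul_pos hal (by linarith)).le)
  · simp only [Pos.den, Pos.dN, Pos.dl, Pos.dD, hdim]
    exact hz1
  · rcases le_or_gt z 0 with h | h
    · linarith [(G.left_facts hz h).2.2.2.2]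
    · linarith [G.aa_nonneg h.le]
  · simp only [Pos.dD]
    rcases le_or_gt z 0 with h | h
    · linarith [G.aa_nonpos hd h]
    · linarith [G.aa_lt h.le]

end Vale.Agent.P100.Full
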