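import Vale.Agent.P100.Cal.Calibrated
import Vale.Agent.P100.Full.DiagPart
import Vale.Agent.P100.Full.Region
import Vale.Agent.P100.Pos.BPos
import Vale.Agent.P100.Pos.PPos

/-!
P100: the Lane–Emden conjecture in every dimension `n ≥ 3`.
-/

open scoped Laplacian

namespace Vale.Agent.P100.Full

/-- The calibrated range. -/
theorem calibrated {n : ℕ} (hn : 5 ≤ n)
    (hkap : ∀ al be y z U, Pos.Region al be y z U →
      1 / 20 * (4 * Pos.gC al be y z U * Pos.gP al be y z U * Pos.aDe al be y z) ≤
        Pos.kap al be y z U) : Calibrated n := by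
  intro α β hβ hβα _ hT
  have hn5 : (5 : ℝ) ≤ n := by exact_mod_cast hn
  let P : Ground.Par := ⟨α, β, by linarith, hβα⟩
  obtain ⟨G⟩ := Ground.exists_groundState P
  exact Cal.no_solution_of_region G hn (show (n : ℝ) < α + β + 2 by linarith) hβ
    (hkap α β) (fun _ _ _ h => Pos.gP_pos h) (Pos.gB_lower hβ hβα)
    (fun _ hz => region_groundState G hβ (show 3 ≤ α + β by linarith) hz)

/-- In dimensions three and four every subcritical pair with `pq > 1` lies in the sector. -/
theorem sector_of_small {n : ℕ} (hn : 3 ≤ n) (hn4 : n ≤ 4) {p q : ℝ} (hp : 0 < p) (hq : 0 < q)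
    (hpq : 1 < p * q) (hsub : ((n : ℝ) - 2) / n < 1 / (p + 1) + 1 / (q + 1)) :
    ((n : ℝ) - 1) * (p * q - 1) < 2 * max (p * (q + 1)) (q * (p + 1)) := by
  have hn3 : (3 : ℝ) ≤ n := by exact_mod_cast hn
  have hn4' : (n : ℝ) ≤ 4 := by exact_mod_cast hn4
  rw [one_div_add_one_div (by positivity) (by positivity),
    div_lt_div_iff₀ (by linarith) (by positivity)] at hsub
  have := le_max_left (p * (q + 1)) (q * (p + 1))
  have := le_max_right (p * (q + 1)) (q * (p + 1))
  nlinarith

/-- The conjecture in every dimension `n ≥ 3` from the sector, the inequalities and the region. -/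
theorem lane_emden_of {n : ℕ} (hn : 3 ≤ n)
    (sector : ∀ p q : ℝ, 0 < p → 0 < q → 1 < p * q →
      ((n : ℝ) - 2) / n < 1 / (p + 1) + 1 / (q + 1) →
      ((n : ℝ) - 1) * (p * q - 1) < 2 * max (p * (q + 1)) (q * (p + 1)) → ¬ HasSolution n p q)
    (hkap : ∀ al be y z U, Pos.Region al be y z U →
      1 / 20 * (4 * Pos.gC al be y z U * Pos.gP al be y z U * Pos.aDe al be y z) ≤
        Pos.kap al be y z U)
    {p q : ℝ} (hp : 0 < p) (hq : 0 < q)
    (hsub : ((n : ℝ) - 2) / n < 1 / (p + 1) + 1 / (q + 1)) : ¬ HasSolution n p q := by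
  rcases le_or_gt 5 n with h5 | h5
  · exact no_solution_of_parts h5 sector (diag_part h5) (calibrated h5 hkap) hp hq hsub
  rcases le_or_gt (p * q) 1 with hpq | hpq
  · exact Diag.no_solution_sublinear hn hp hq hpq
  · exact sector p q hp hq hpq hsub (sector_of_small hn (by omega) hp hq hpq hsub)

end Vale.Agent.P100.Full
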